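import Mathlib.Analysis.InnerProductSpace.Basic
import Mathlib.Analysis.SpecificLimits.Basic
import Mathlib.Data.Finsupp.Basic
import Mathlib.Topology.Order.MonotoneConvergence

/-! # P284, theorem TAN (helper409): convex combinations of the tail of a bounded sequence in a Hilbert
space converge -/

open scoped Topology
open Filter Set

noncomputable section

namespace Vale.Agent.P284.H409.TAN

variable {H : Type*} [NormedAddCommGroup H] [InnerProductSpace ℝ H]

/-- weights supported in the tail -/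
structure Wt (k : ℕ) (c : ℕ →₀ ℝ) : Prop where
  nonneg : ∀ j, 0 ≤ c j
  sum : (c.sum fun _ a => a) = 1
  tail : ∀ j, j < k → c j = 0

theorem Wt.single (k : ℕ) : Wt k (Finsupp.single k 1) := by
  refine ⟨fun j => ?_, by simp, fun j hj => ?_⟩
  · by_cases h : k = j
    · subst h; simp
    · simp [h]
  · exact Finsupp.single_eq_of_ne (by omega)

theorem Wt.mono {k l : ℕ} {c : ℕ →₀ ℝ} (h : Wt l c) (hkl : k ≤ l) : Wt k c :=
  ⟨h.nonneg, h.sum, fun j hj => h.tail j (lt_of_lt_of_le hj hkl)⟩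

theorem Wt.half {k : ℕ} {c d : ℕ →₀ ℝ} (hc : Wt k c) (hd : Wt k d) :
    Wt k ((1 / 2 : ℝ) • (c + d)) := by
  refine ⟨fun j => ?_, ?_, fun j hj => ?_⟩
  · have := hc.nonneg j
    have := hd.nonneg j
    simp only [Finsupp.coe_smul, Finsupp.coe_add, Pi.smul_apply, Pi.add_apply, smul_eq_mul]
    positivity
  · rw [Finsupp.sum_smul_index (by simp), ← Finsupp.mul_sum, Finsupp.sum_add_index' (by simp) (by simp),
      hc.sum, hd.sum]
    norm_num
  · simp [hc.tail j hj, hd.tail j hj]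

/-- the combination -/
def comb (x : ℕ → H) (c : ℕ →₀ ℝ) : H := c.sum fun j a => a • x j

theorem comb_half (x : ℕ → H) (c d : ℕ →₀ ℝ) :
    comb x ((1 / 2 : ℝ) • (c + d)) = (1 / 2 : ℝ) • (comb x c + comb x d) := by
  unfold comb
  rw [Finsupp.sum_smul_index' (by simp), ← Finsupp.sum_add_index' (by simp) (by
    intro j a b; rw [add_smul]), Finsupp.smul_sum]
  refine Finsupp.sum_congr fun j _ => ?_
  rw [smul_assoc]

/-- convex combinations of the tails of a bounded sequence which form a Cauchy sequence -/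
theorem exists_cauchy (x : ℕ → H) (K : ℝ) (hK : ∀ k, ‖x k‖ ≤ K) :
    ∃ c : ℕ → ℕ →₀ ℝ, (∀ k, Wt k (c k)) ∧ CauchySeq fun k => comb x (c k) := by
  set A : ℕ → Set ℝ := fun k => (fun c => ‖comb x c‖ ^ 2) '' {c | Wt k c} with hA
  have hbdd : ∀ k, BddBelow (A k) := fun k => ⟨0, by
    rintro _ ⟨c, _, rfl⟩
    positivity⟩
  have hne : ∀ k, (A k).Nonempty := fun k => ⟨_, Finsupp.single k 1, Wt.single k, rfl⟩
  set m : ℕ → ℝ := fun k => sInf (A k) with hm
  have hmono : Monotone m := by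
    intro k l hkl
    refine csInf_le_csInf (hbdd k) (hne l) ?_
    rintro _ ⟨c, hc, rfl⟩
    exact ⟨c, Wt.mono hc hkl, rfl⟩
  have hmK : ∀ k, m k ≤ K ^ 2 := by
    intro k
    have h1 : ‖comb x (Finsupp.single k 1)‖ ^ 2 ∈ A k := ⟨_, Wt.single k, rfl⟩
    refine (csInf_le (hbdd k) h1).trans ?_
    have h2 : comb x (Finsupp.single k 1) = x k := by
      unfold comb
      rw [Finsupp.sum_single_index (by simp), one_smul]
    rw [h2]
    exact pow_le_pow_left₀ (norm_nonneg _) (hK k) 2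
  have hconv : CauchySeq m := by
    refine (tendsto_atTop_ciSup hmono ⟨K ^ 2, ?_⟩).cauchySeq
    rintro _ ⟨k, rfl⟩
    exact hmK k
  have hex : ∀ k : ℕ, ∃ c, Wt k c ∧ ‖comb x c‖ ^ 2 < m k + 1 / ((k : ℝ) + 1) := by
    intro k
    have h1 : sInf (A k) < m k + 1 / ((k : ℝ) + 1) := by
      have : (0 : ℝ) < 1 / ((k : ℝ) + 1) := by positivity
      linarith
    obtain ⟨_, ⟨c, hc, rfl⟩, h2⟩ := exists_lt_of_csInf_lt (hne k) h1
    exact ⟨c, hc, h2⟩
  choose c hc hcm using hex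
  refine ⟨c, hc, ?_⟩
  have key : ∀ k l, k ≤ l → ‖comb x (c k) - comb x (c l)‖ ^ 2 ≤
      2 * (m l - m k) + 4 * (1 / ((k : ℝ) + 1)) := by
    intro k l hkl
    have h1 : m k ≤ ‖comb x ((1 / 2 : ℝ) • (c k + c l))‖ ^ 2 :=
      csInf_le (hbdd k) ⟨_, Wt.half (hc k) (Wt.mono (hc l) hkl), rfl⟩
    rw [comb_half, norm_smul, mul_pow] at h1
    have h2 := parallelogram_law_with_norm ℝ (comb x (c k)) (comb x (c l))
    have h3 : 1 / ((l : ℝ) + 1) ≤ 1 / ((k : ℝ) + 1) := by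
      refine one_div_le_one_div_of_le (by positivity) ?_
      have : (k : ℝ) ≤ l := by exact_mod_cast hkl
      linarith
    have h4 := hcm k
    have h5 := hcm l
    norm_num at h1
    nlinarith
  rw [Metric.cauchySeq_iff']
  intro ε hε
  have hε2 : 0 < ε ^ 2 / 16 := by positivity
  obtain ⟨N₁, hN₁⟩ := Metric.cauchySeq_iff'.1 hconv (ε ^ 2 / 16) hε2
  obtain ⟨N₂, hN₂⟩ := exists_nat_one_div_lt hε2
  refine ⟨max N₁ N₂, fun n hn => ?_⟩
  have h1 := key (max N₁ N₂) n hn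
  have h2 := hN₁ n ((le_max_left _ _).trans hn)
  have h3 := hN₁ (max N₁ N₂) (le_max_left _ _)
  rw [Real.dist_eq, abs_lt] at h2 h3
  have h4 : 1 / (((max N₁ N₂ : ℕ) : ℝ) + 1) ≤ 1 / ((N₂ : ℝ) + 1) := by
    refine one_div_le_one_div_of_le (by positivity) ?_
    have : (N₂ : ℝ) ≤ ((max N₁ N₂ : ℕ) : ℝ) := by exact_mod_cast le_max_right N₁ N₂
    linarith
  have h5 : ‖comb x (c (max N₁ N₂)) - comb x (c n)‖ ^ 2 < ε ^ 2 := by
    nlinarith [h2.1, h2.2, h3.1, h3.2]
  rw [dist_comm, dist_eq_norm]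
  exact lt_of_pow_lt_pow_left₀ 2 hε.le h5

end Vale.Agent.P284.H409.TAN
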