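import Vale.Agent.P284.H409.TAN.Mazur
import Mathlib.MeasureTheory.Function.L2Space
import Mathlib.Analysis.InnerProductSpace.PiL2
import Mathlib.Analysis.InnerProductSpace.EuclideanDist
import Mathlib.Analysis.Calculus.ContDiff.Basic
import Mathlib.MeasureTheory.Constructions.BorelSpace.ContinuousLinearMap

/-! # P284, theorem TAN (helper409): row R2, strong convergence of gradients -/

open scoped Topology ENNReal
open Filter Set MeasureTheory Metric

noncomputable section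

namespace Vale.Agent.P284.H409.TAN

variable {E : Type*} [NormedAddCommGroup E] [NormedSpace ℝ E]

/-- the combination of the functions -/
def cf {E : Type*} (f : ℕ → E → ℝ) (c : ℕ →₀ ℝ) (z : E) : ℝ := ∑ j ∈ c.support, c j * f j z

theorem cf_contDiff {f : ℕ → E → ℝ} (hf : ∀ k, ContDiff ℝ 1 (f k)) (c : ℕ →₀ ℝ) :
    ContDiff ℝ 1 (cf f c) := by
  unfold cf
  exact ContDiff.sum fun j _ => contDiff_const.mul (hf j)

theorem cf_fderiv {f : ℕ → E → ℝ} (hf : ∀ k, ContDiff ℝ 1 (f k)) (c : ℕ →₀ ℝ) (z : E) :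
    fderiv ℝ (cf f c) z = ∑ j ∈ c.support, c j • fderiv ℝ (f j) z := by
  have h : HasFDerivAt (cf f c) (∑ j ∈ c.support, c j • fderiv ℝ (f j) z) z := by
    unfold cf
    exact HasFDerivAt.fun_sum fun j _ =>
      (((hf j).differentiable one_ne_zero z).hasFDerivAt).const_mul (c j)
  exact h.fderiv

theorem cf_tendsto {E : Type*} {f : ℕ → E → ℝ} {c : ℕ → ℕ →₀ ℝ} (hc : ∀ k, Wt k (c k)) {z : E} {a : ℝ}
    (h : Tendsto (fun k => f k z) atTop (𝓝 a)) : Tendsto (fun k => cf f (c k) z) atTop (𝓝 a) := by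
  rw [Metric.tendsto_atTop] at h ⊢
  intro ε hε
  obtain ⟨N, hN⟩ := h (ε / 2) (by linarith)
  refine ⟨N, fun k hk => ?_⟩
  have hs : ∑ j ∈ (c k).support, c k j = 1 := (hc k).sum
  have h1 : cf f (c k) z - a = ∑ j ∈ (c k).support, c k j * (f j z - a) := by
    unfold cf
    simp only [mul_sub, Finset.sum_sub_distrib, ← Finset.sum_mul, hs, one_mul]
  rw [Real.dist_eq, h1]
  have h2 : |∑ j ∈ (c k).support, c k j * (f j z - a)| ≤ ∑ j ∈ (c k).support, c k j * (ε / 2) := by
    refine (Finset.abs_sum_le_sum_abs _ _).trans (Finset.sum_le_sum fun j hj => ?_)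
    rw [abs_mul, abs_of_nonneg ((hc k).nonneg j)]
    refine mul_le_mul_of_nonneg_left ?_ ((hc k).nonneg j)
    have hj' : k ≤ j := by
      by_contra hlt
      exact (Finsupp.mem_support_iff.1 hj) ((hc k).tail j (not_le.1 hlt))
    have := hN j (hk.trans hj')
    rw [Real.dist_eq] at this
    exact this.le
  rw [← Finset.sum_mul, hs, one_mul] at h2
  linarith

variable [FiniteDimensional ℝ E] [MeasurableSpace E] [BorelSpace E]

variable (E) in
/-- the Euclidean space isomorphic to the dual space -/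
abbrev EU : Type := EuclideanSpace ℝ (Fin (Module.finrank ℝ (E →L[ℝ] ℝ)))

/-- **R2**: after convex combinations of the tails the gradients converge in `L¹` -/
theorem r2 (μ : Measure E) [IsFiniteMeasureOnCompacts μ] (u : E → ℝ) (S : Set E)
    (hS : Bornology.IsBounded S) (f : ℕ → E → ℝ) (K : ℝ) (hf : ∀ k, ContDiff ℝ 1 (f k))
    (hlim : ∀ z ∈ S, Tendsto (fun k => f k z) atTop (𝓝 (u z)))
    (hK : ∀ k, ∫ z in S, ‖fderiv ℝ (f k) z‖ ^ 2 ∂μ ≤ K) :
    ∃ (g : ℕ → E → ℝ) (G : E → E →L[ℝ] ℝ), (∀ k, ContDiff ℝ 1 (g k)) ∧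
      (∀ z ∈ S, Tendsto (fun k => g k z) atTop (𝓝 (u z))) ∧ StronglyMeasurable G ∧
      IntegrableOn G S μ ∧
      Tendsto (fun k => ∫⁻ z in S, ‖fderiv ℝ (g k) z - G z‖ₑ ∂μ) atTop (𝓝 0) := by
  have : ProperSpace E := FiniteDimensional.proper ℝ E
  obtain ⟨R, hR⟩ := hS.subset_closedBall 0
  have hSfin : μ S < ∞ := (measure_mono hR).trans_lt (isCompact_closedBall 0 R).measure_lt_top
  have : IsFiniteMeasure (μ.restrict S) := ⟨by rwa [Measure.restrict_apply_univ]⟩
  let T : (E →L[ℝ] ℝ) ≃L[ℝ] EU E := toEuclidean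
  let T' : (E →L[ℝ] ℝ) →L[ℝ] EU E := T.toContinuousLinearMap
  have hcont : ∀ h : E → ℝ, ContDiff ℝ 1 h → Continuous fun z => T (fderiv ℝ h z) := fun h hh =>
    T.continuous.comp (hh.continuous_fderiv one_ne_zero)
  have hmem : ∀ (h : E → EU E), Continuous h →
      MemLp h 2 (μ.restrict S) := by
    intro h hh
    obtain ⟨C, hC⟩ := (isCompact_closedBall (0 : E) R).exists_bound_of_continuousOn hh.continuousOn
    refine MemLp.of_bound hh.aestronglyMeasurable C ?_
    filter_upwards [ae_restrict_of_ae_restrict_of_subset hR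
      (ae_restrict_mem measurableSet_closedBall)] with z hz
    exact hC z hz
  -- the elements of `L²`
  let x : ℕ → Lp (EU E) 2 (μ.restrict S) :=
    fun k => (hmem _ (hcont _ (hf k))).toLp _
  have hx : ∀ k, ‖x k‖ ≤ Real.sqrt (‖T'‖ ^ 2 * K) := by
    intro k
    refine Real.le_sqrt_of_sq_le ?_
    rw [← real_inner_self_eq_norm_sq, MeasureTheory.L2.inner_def]
    have h1 : (∫ a, inner ℝ ((x k : E → _) a) ((x k : E → _) a) ∂(μ.restrict S)) =
        ∫ z in S, ‖T (fderiv ℝ (f k) z)‖ ^ 2 ∂μ := by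
      refine integral_congr_ae ?_
      filter_upwards [(hmem _ (hcont _ (hf k))).coeFn_toLp] with z hz
      rw [real_inner_self_eq_norm_sq, hz]
    rw [h1]
    refine le_trans ?_ (mul_le_mul_of_nonneg_left (hK k) (by positivity))
    rw [← integral_const_mul]
    refine integral_mono_of_nonneg (Eventually.of_forall fun z => by positivity) ?_
      (Eventually.of_forall fun z => ?_)
    · refine Integrable.const_mul ?_ _
      obtain ⟨C, hC⟩ := (isCompact_closedBall (0 : E) R).exists_bound_of_continuousOn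
        (((hf k).continuous_fderiv one_ne_zero).norm.pow 2).continuousOn
      refine Integrable.of_bound
        (((hf k).continuous_fderiv one_ne_zero).norm.pow 2).aestronglyMeasurable C ?_
      filter_upwards [ae_restrict_of_ae_restrict_of_subset hR
        (ae_restrict_mem measurableSet_closedBall)] with z hz
      exact hC z hz
    · show ‖T (fderiv ℝ (f k) z)‖ ^ 2 ≤ ‖T'‖ ^ 2 * ‖fderiv ℝ (f k) z‖ ^ 2
      rw [← mul_pow]
      exact pow_le_pow_left₀ (norm_nonneg _)
        (T'.le_opNorm (fderiv ℝ (f k) z)) 2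
  obtain ⟨c, hc, hcau⟩ := exists_cauchy x _ hx
  obtain ⟨L, hL⟩ := cauchySeq_tendsto_of_complete hcau
  have hxc : ∀ k, comb x (c k) = (hmem _ (hcont _ (cf_contDiff hf (c k)))).toLp _ := by
    intro k
    refine Lp.ext ?_
    refine EventuallyEq.trans ?_ (hmem _ (hcont _ (cf_contDiff hf (c k)))).coeFn_toLp.symm
    have h1 : ∀ j ∈ (c k).support, (fun z => ((c k j • x j : Lp (EU E) 2 (μ.restrict S)) : E → EU E) z)
        =ᵐ[μ.restrict S] fun z => c k j • T (fderiv ℝ (f j) z) := by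
      intro j _
      filter_upwards [Lp.coeFn_smul (c k j) (x j), (hmem _ (hcont _ (hf j))).coeFn_toLp] with z h2 h3
      rw [h2, Pi.smul_apply]
      congr 1
    have h2 : ∀ᵐ z ∂(μ.restrict S), ∀ j ∈ (c k).support,
        ((c k j • x j : Lp (EU E) 2 (μ.restrict S)) : E → EU E) z = c k j • T (fderiv ℝ (f j) z) :=
      (Filter.eventually_all_finset _).2 h1
    have h3 : comb x (c k) = ∑ j ∈ (c k).support, c k j • x j := rfl
    rw [h3]
    filter_upwards [Lp.coeFn_fun_finsetSum (c k).support fun j => c k j • x j, h2] with z h4 h5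
    rw [h4, Finset.sum_congr rfl h5, cf_fderiv hf, map_sum]
    refine Finset.sum_congr rfl fun j _ => ?_
    rw [map_smul]
  refine ⟨fun k => cf f (c k), fun z => T.symm (L z), fun k => cf_contDiff hf _,
    fun z hz => cf_tendsto hc (hlim z hz),
    T.symm.continuous.comp_stronglyMeasurable (Lp.stronglyMeasurable L), ?_, ?_⟩
  · have h1 : MemLp (L : E → EU E) 1 (μ.restrict S) := (Lp.memLp L).mono_exponent one_le_two
    exact (T.symm : EU E →L[ℝ] (E →L[ℝ] ℝ)).integrable_comp (memLp_one_iff_integrable.1 h1)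
  · obtain ⟨y, hy⟩ : ∃ y : ℕ → Lp (EU E) 2 (μ.restrict S), y = fun k => comb x (c k) := ⟨_, rfl⟩
    have hyk : ∀ k, y k = (hmem _ (hcont _ (cf_contDiff hf (c k)))).toLp _ := fun k => by
      rw [hy]
      exact hxc k
    have hyL : Tendsto (fun k => eLpNorm (⇑(y k) - ⇑L) 2 (μ.restrict S)) atTop (𝓝 0) := by
      rw [← Lp.tendsto_Lp_iff_tendsto_eLpNorm', hy]
      exact hL
    obtain ⟨Ct, hCt, hCt2⟩ : ∃ Ct : ℝ≥0∞, Ct ≠ ∞ ∧ ∀ a : EU E, ‖T.symm a‖ₑ ≤ Ct * ‖a‖ₑ :=
      ⟨‖(T.symm : EU E →L[ℝ] (E →L[ℝ] ℝ))‖ₑ, enorm_ne_top, fun a =>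
        ContinuousLinearMap.le_opENorm (T.symm : EU E →L[ℝ] (E →L[ℝ] ℝ)) a⟩
    obtain ⟨M, hM, hM2⟩ : ∃ M : ℝ≥0∞, M ≠ ∞ ∧ ∀ h : E → EU E, AEStronglyMeasurable h (μ.restrict S) →
        eLpNorm h 1 (μ.restrict S) ≤ eLpNorm h 2 (μ.restrict S) * M :=
      ⟨(μ.restrict S) univ ^ (1 / (1 : ℝ≥0∞).toReal - 1 / (2 : ℝ≥0∞).toReal),
        ENNReal.rpow_ne_top_of_nonneg (by norm_num) (measure_ne_top _ _),
        fun h hh => eLpNorm_le_eLpNorm_mul_rpow_measure_univ one_le_two hh⟩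
    have h1 : ∀ k, ∫⁻ z in S, ‖fderiv ℝ (cf f (c k)) z - T.symm (L z)‖ₑ ∂μ ≤
        Ct * (eLpNorm (⇑(y k) - ⇑L) 2 (μ.restrict S) * M) := by
      intro k
      have h2 : ∫⁻ z in S, ‖fderiv ℝ (cf f (c k)) z - T.symm (L z)‖ₑ ∂μ ≤
          ∫⁻ z in S, Ct * ‖(y k) z - L z‖ₑ ∂μ := by
        refine lintegral_mono_ae ?_
        have h3 := (hmem _ (hcont _ (cf_contDiff hf (c k)))).coeFn_toLp
        rw [← hyk k] at h3
        filter_upwards [h3] with z hz
        rw [hz]
        have h4 : fderiv ℝ (cf f (c k)) z - T.symm (L z) =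
            T.symm (T (fderiv ℝ (cf f (c k)) z) - L z) := by
          rw [map_sub, ContinuousLinearEquiv.symm_apply_apply]
        rw [h4]
        exact hCt2 _
      refine h2.trans ?_
      rw [lintegral_const_mul' _ _ hCt]
      refine mul_le_mul_right ?_ _
      refine le_trans (le_of_eq ?_) (hM2 _ ((Lp.aestronglyMeasurable _).sub
        (Lp.aestronglyMeasurable _)))
      rw [eLpNorm_one_eq_lintegral_enorm]
      rfl
    have h6 : Tendsto (fun k => Ct * (eLpNorm (⇑(y k) - ⇑L) 2 (μ.restrict S) * M)) atTop (𝓝 0) := by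
      have h7 := ENNReal.Tendsto.const_mul (ENNReal.Tendsto.mul_const hyL (Or.inr hM)) (Or.inr hCt)
      simpa using h7
    exact tendsto_of_tendsto_of_tendsto_of_le_of_le tendsto_const_nhds h6 (fun _ => bot_le) h1

end Vale.Agent.P284.H409.TAN
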